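import Claimed.Agent.R322.Fit.Fail.Main

/-!
# AE Lemma 7.2 (failed fit forces separation): the EXPORT consumed by `Fit/Main.lean`

Written by helper79 (consumer); glue from `fail_sep` (package BP-Fit-72, owner helper224, `Fit/Fail/Main.lean`).
`Sep F cc c₀ ε₀ ε₁` is the field `StartData.sep` VERBATIM for the varifold `W` and the failure scales `F.ℓ` of a family of fits.
The constants are fixed before `m₀` and the goodness threshold.  The lemma may ask for many derivatives (`J₀ ≤ c.J`) and for low scaled cylinders (`c.h ≤ h₀`).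
-/

set_option autoImplicit false

open scoped ENNReal ContDiff
open MeasureTheory Filter Topology

namespace Claimed.Agent.R322.Fit

open Claimed.Agent.R322.Tube Claimed.Agent.R322.Freq

variable {m n Q : ℕ} {W : SIV m n} {c : FitCst} {m₀ : ℝ}

/-- failed-fit separation (= `StartData.sep`) -/
def Sep (F : FitFam W Q c m₀) (cc c₀ ε₀ ε₁ : ℝ) : Prop :=
  ∀ x : E m, ‖x‖ < 5 → 0 < F.ℓ x → ∀ y₀ : E m, ‖y₀ - x‖ < 30 * F.ℓ x →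
    ∀ Γ : Set (E (m + n)), ConeSet ε₁ Γ →
    ENNReal.ofReal (cc * F.ℓ x ^ m) ≤ W.μ {X | ‖prH m n X - y₀‖ < c₀ * F.ℓ x ∧ ‖prV m n X‖ ≤ 1 ∧
      ‖W.P X - PH m n‖ ≤ ε₀ ∧ ∀ P ∈ Γ, cc * m₀ * F.ℓ x ^ c.k ≤ ‖X - P‖}

/-- **AE Lemma 7.2**, export. -/
theorem exists_sep (m n Q : ℕ) (hm : 1 ≤ m) (hn : 1 ≤ n) (hQ : 1 ≤ Q) :
    ∃ (J₀ : ℕ) (h₀ : ℝ), 0 < h₀ ∧ ∀ c : FitCst, J₀ ≤ c.J → c.h ≤ h₀ → c.Adm m →
      ∃ cc c₀ ε₀ ε₁ : ℝ, 0 < cc ∧ cc ≤ 1 ∧ 0 < c₀ ∧ c₀ ≤ 1 / 100 ∧ 0 < ε₀ ∧ ε₀ ≤ 1 / 100 ∧ 0 < ε₁ ∧ ε₁ ≤ 1 ∧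
        ∀ᶠ m₀ in 𝓝[>] (0 : ℝ), ∀ᶠ eg in 𝓝[>] (0 : ℝ), ∀ W : SIV m n, IsGood W Q eg →
          ∀ F : FitFam W Q c m₀, Sep F cc c₀ ε₀ ε₁ := by
  obtain ⟨J₀, h₀, hh₀, h⟩ := fail_sep m n Q hm hn hQ
  refine ⟨J₀, h₀, hh₀, fun c hJ hh hadm => ?_⟩
  obtain ⟨cc, hcc, hcc1, h⟩ := h c hJ hh hadm
  refine ⟨cc, 1 / 100, 1 / 100, 1, hcc, hcc1, by norm_num, le_rfl, by norm_num, le_rfl, one_pos, le_rfl, ?_⟩
  filter_upwards [h] with m₀ h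
  filter_upwards [Ioo_mem_nhdsGT (show (0 : ℝ) < 1 / 2 by norm_num)] with eg heg
  intro W hW F x hx hℓ y₀ hy₀ Γ hΓ
  have hjf : F.jf x ≠ ⊤ := by
    intro htop
    unfold FitFam.ℓ at hℓ
    rw [if_neg (fun hh => hh.2 htop)] at hℓ
    exact lt_irrefl _ hℓ
  have e : F.ℓ x = sc (F.jf x).toNat := by
    unfold FitFam.ℓ
    rw [if_pos ⟨hx, hjf⟩]
  rw [e] at hy₀ ⊢
  exact h eg W heg.2.le hW F x (F.jf x).toNat hx (ENat.natCast_toNat hjf).symm y₀ hy₀ Γ hΓ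

end Claimed.Agent.R322.Fit
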