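import Claimed.Agent.R322.Fit.Glue.Cyl
import Claimed.Agent.R322.Fit.Sep
import Claimed.Agent.R322.Fit.Fits.Main

/-!
# The fitting input of CO Section 4: `exists_startData`

Owner: helper79 (package BP-Fit-glue).  Assembly of

* `exists_fitFam` (AE Lemma 7.1, `Fit/Fits/Main.lean`),
* `exists_sep` (AE Lemma 7.2, `Fit/Sep.lean`),
* `Glue.exists_center`, `Glue.center_curv` (`Fit/Glue/Center.lean`), `Glue.CylIn`, `Glue.GlOK` (`Fit/Glue/Cyl.lean`).

The statement is `Freq.exists_startData` (`Freq/Start.lean`) VERBATIM.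
Smallness of the failure scales: `Sep` with `Γ =` horizontal plane gives a support point at height `≥ cc m₀ ℓ^k` over `B_6`; the height of a good varifold is `≤ eg`.
-/

set_option autoImplicit false

open scoped ENNReal ContDiff
open MeasureTheory Filter Topology

namespace Claimed.Agent.R322.Fit

open Claimed.Agent.R322.Tube Claimed.Agent.R322.Freq Claimed.Agent.R322.Fit.Glue

variable {m n Q : ℕ} {W : SIV m n} {c : FitCst} {m₀ : ℝ} {F : FitFam W Q c m₀}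

theorem norm_lt_of_ℓ_pos (F : FitFam W Q c m₀) {x : E m} (h : 0 < F.ℓ x) : ‖x‖ < 5 := by
  unfold FitFam.ℓ at h
  split_ifs at h with h1
  · exact h1.1
  · exact absurd h (lt_irrefl _)

/-- all failure scales are small -/
theorem ℓ_small_of_sep {eg cc c₀ ε₀ ε₁ lm : ℝ} (hgood : IsGood W Q eg) (hsep : Sep F cc c₀ ε₀ ε₁) (hcc : 0 < cc)
    (hc₀ : c₀ ≤ 1 / 100) (hε₁ : 0 ≤ ε₁) (hm₀ : 0 < m₀) (hlm : 0 < lm) (heg : eg < cc * m₀ * lm ^ c.k) (x : E m) :
    F.ℓ x ≤ lm := by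
  by_contra hcon
  push Not at hcon
  have hℓ0 : 0 < F.ℓ x := hlm.trans hcon
  have hx := norm_lt_of_ℓ_pos F hℓ0
  have hℓ1 : F.ℓ x ≤ 1 := (isFail_ℓ F).le x
  have hΓ : ConeSet ε₁ {P : E (m + n) | prV m n P = 0} := by
    intro p hp p' hp'
    have e1 : prV m n p = 0 := hp
    have e2 : prV m n p' = 0 := hp'
    rw [map_sub, e1, e2, sub_zero, norm_zero]
    positivity
  have h1 := hsep x hx hℓ0 x (by rw [sub_self, norm_zero]; positivity) _ hΓ
  have h2 : 0 < ENNReal.ofReal (cc * F.ℓ x ^ m) := ENNReal.ofReal_pos.2 (by positivity)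
  have h3 := h2.trans_le h1
  obtain ⟨X, hXS, hX⟩ : ∃ X, X ∈ {X | ‖prH m n X - x‖ < c₀ * F.ℓ x ∧ ‖prV m n X‖ ≤ 1 ∧
      ‖W.P X - PH m n‖ ≤ ε₀ ∧ ∀ P ∈ {P : E (m + n) | prV m n P = 0}, cc * m₀ * F.ℓ x ^ c.k ≤ ‖X - P‖} ∧ X ∈ W.support := by
    by_contra hno
    push Not at hno
    exact h3.ne' (measure_mono_null (fun X hX => hno X hX) W.μ_compl_support)
  obtain ⟨ha, hb, -, hd⟩ := hXS
  have h4 : ‖prH m n X‖ ≤ ‖prH m n X - x‖ + ‖x‖ := by
    have := norm_add_le (prH m n X - x) x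
    rwa [sub_add_cancel] at this
  have h5 := Glue.norm_le_prH_add_prV X
  have h6 : c₀ * F.ℓ x ≤ 1 := by nlinarith
  have h7 := hgood.height X hX (by linarith)
  have h8 := hd (mkHV (prH m n X) 0) (prV_mkHV _ _)
  have h9 : ‖X - mkHV (prH m n X) 0‖ = ‖prV m n X‖ := by
    have h := norm_sq_eq_prH_prV (X - mkHV (prH m n X) 0)
    rw [map_sub, map_sub, prH_mkHV, prV_mkHV, sub_self, norm_zero, sub_zero] at h
    have h1 := norm_nonneg (X - mkHV (prH m n X) 0)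
    have h2 := norm_nonneg (prV m n X)
    nlinarith
  rw [h9] at h8
  have h10 : lm ^ c.k ≤ F.ℓ x ^ c.k := pow_le_pow_left₀ hlm.le hcon.le _
  have h11 : cc * m₀ * lm ^ c.k ≤ cc * m₀ * F.ℓ x ^ c.k := mul_le_mul_of_nonneg_left h10 (by positivity)
  linarith

/-- the glued centre is an admissible reference graph -/
theorem cylIn_of_center {C hc eg : ℝ} {u : E m → E n} (hgood : IsGood W Q eg) (hJ : 4 ≤ c.J) (hu : Center F C u)
    (hhc : 0 < hc) (hhc1 : hc ≤ 1 / 10) (heg : eg ≤ hc / 8) (hCm : C * m₀ ≤ hc / 8) : CylIn W Q u hc eg := by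
  refine ⟨hgood, ⟨hu.smooth.of_le (by exact_mod_cast hJ), fun y => ?_, fun y => ?_, fun y => ?_, le_rfl⟩, hhc, hhc1, heg,
    fun y => ?_⟩
  · rw [← norm_iteratedFDeriv_one]
    exact (hu.bound 1 (by omega) y).trans (by linarith)
  · exact (hu.bound 2 (by omega) y).trans (by linarith)
  · exact (hu.bound 3 (by omega) y).trans (by linarith)
  · rw [← norm_iteratedFDeriv_zero (𝕜 := ℝ)]
    exact (hu.bound 0 (by omega) y).trans hCm

theorem refGraph_of_center {C CB : ℝ} {u : E m → E n} (hu : Center F C u) (hm₀ : 0 ≤ m₀) (hJ : 1 ≤ c.J) (hCB : C ≤ CB) :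
    RefGraph c.J (CB * m₀) (CB * m₀) u := by
  have h : C * m₀ ≤ CB * m₀ := mul_le_mul_of_nonneg_right hCB hm₀
  refine ⟨hu.smooth, fun y => ?_, fun j _ hj y => (hu.bound j hj y).trans h⟩
  rw [← norm_iteratedFDeriv_one]
  exact (hu.bound 1 hJ y).trans h

/-- assembly of the structure -/
theorem startData_of (hm : 1 ≤ m) (hQ : 1 ≤ Q) {C hc eg : ℝ} {u : E m → E n} (G : GlOK F C u hc eg) (hJ : 1 ≤ c.J)
    {C' CB cc c₀ ε₀ ε₁ lm : ℝ}
    (hcurv : ∀ y : E m, ‖y‖ ≤ 22 / 5 → ‖HS u y‖ + Real.sqrt (DHSsq u y) ≤ C' * m₀ ^ 2 * tent F.ℓ y ^ (2 * c.k - 4))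
    (hsep : Sep F cc c₀ ε₀ ε₁) (hlm : ∀ x, F.ℓ x ≤ lm)
    (h1 : C ≤ CB) (h2 : C' ≤ CB) (h3 : (1 + C) * 32 ^ c.k ≤ CB) (h4 : Cmom m Q c C ≤ CB) :
    ∃ S : StartData m n Q ⟨c.J, c.k, c.q, m₀, CB, cc, c₀, 1 / 100, ε₀, ε₁, lm, hc⟩, S.N.W = W := by
  have hm₀ := G.m₀_pos
  have hF := isFail_ℓ F
  have hmono : ∀ {a b t : ℝ} (e : ℕ), a ≤ b → 0 ≤ t → a * m₀ * t ^ e ≤ b * m₀ * t ^ e := by
    intro a b t e hab ht
    have : 0 ≤ m₀ * t ^ e := by positivity
    nlinarith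
  have h16 : (1 + C) * 16 ^ c.k ≤ CB := by
    refine le_trans ?_ h3
    have : (16 : ℝ) ^ c.k ≤ 32 ^ c.k := pow_le_pow_left₀ (by norm_num) (by norm_num) _
    have hC := G.C_ge
    nlinarith
  refine ⟨{ N := G.cyl.mkN hQ
            N_Q := rfl
            N_Ω := rfl
            N_h := rfl
            cover := fun X hX hX1 hXh => G.cyl.mem_cyl hX (by linarith) (by linarith)
            ref := refGraph_of_center G.cen hm₀.le hJ h1
            ℓ := F.ℓ
            ℓ_dyadic := hF.dyadic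
            ℓ_small := hlm
            curv := fun y hy => ?_
            height_h := fun X hX hXc => (G.height_h hX hXc).trans (hmono _ h16 (tent_nonneg hF _))
            height_p := fun X hX hXc => (G.height_p hX hXc).trans (hmono _ h3 (tent_nonneg hF _))
            height_v := fun X hX hXc => (G.height_v hX hXc).trans (hmono _ h16 (tent_nonneg hF _))
            sep := hsep
            moment := fun y₀ hy₀ ht η A hη hsupp hA => ?_ }, rfl⟩
  · rw [Metric.mem_ball, dist_zero_right] at hy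
    refine (hcurv y (by linarith)).trans ?_
    show C' * m₀ ^ 2 * tent F.ℓ y ^ (2 * c.k - 4) ≤ CB * m₀ ^ 2 * tent F.ℓ y ^ (2 * c.k - 4)
    have : 0 ≤ m₀ ^ 2 * tent F.ℓ y ^ (2 * c.k - 4) := by
      have := tent_nonneg hF y
      positivity
    nlinarith
  · refine (G.moment hm hy₀ ht η A hη hsupp hA).trans ?_
    show Cmom m Q c C * A * m₀ ^ 2 * tent F.ℓ y₀ ^ (m + 2 * c.k - 1) ≤ CB * A * m₀ ^ 2 * tent F.ℓ y₀ ^ (m + 2 * c.k - 1)
    have hA0 : 0 ≤ A := by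
      have := hA 0 (Nat.zero_le _) y₀
      rw [pow_zero, one_mul] at this
      exact (norm_nonneg _).trans this
    have : 0 ≤ A * m₀ ^ 2 * tent F.ℓ y₀ ^ (m + 2 * c.k - 1) := by positivity
    nlinarith

/-- **Fitting input** (AE Lemmas 7.1-7.2, gluing half of AE Proposition 7.3, in the generality of CO Lemma 4.1 and
CO (4.4)).  The derivative order can be prescribed from below. -/
theorem exists_startData (m n Q : ℕ) (hm : 1 ≤ m) (hn : 1 ≤ n) (hQ : 1 ≤ Q) (J : ℕ) :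
    ∃ B : FitBase, J ≤ B.J ∧ B.Adm m ∧
      Ev B (fun π => ∀ W : SIV m n, IsGood W Q π.eg → ∃ S : StartData m n Q π.fit, S.N.W = W) := by
  obtain ⟨J₁, h₀, hh₀, hsep⟩ := exists_sep m n Q hm hn hQ
  obtain ⟨c, hcJ, hch, hcadm, hfit⟩ := exists_fitFam m n Q hm hn hQ (max J (max J₁ 4)) h₀ hh₀
  have hJ0 : J ≤ c.J := (le_max_left _ _).trans hcJ
  have hJ1 : J₁ ≤ c.J := ((le_max_left _ _).trans (le_max_right _ _)).trans hcJ
  have hJ4 : 4 ≤ c.J := ((le_max_right _ _).trans (le_max_right _ _)).trans hcJ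
  obtain ⟨cc, c₀, ε₀, ε₁, hcc, hcc1, hc₀, hc₀1, hε₀, hε₀1, hε₁, hε₁1, hsep⟩ := hsep c hJ1 hch hcadm
  obtain ⟨C, hC, hcen⟩ := exists_center m n c hcadm
  obtain ⟨C', hC', hcurv⟩ := center_curv m n c hcadm (by omega) C hC
  have hcC := hcadm.C_ge
  have hk32 : (0 : ℝ) < 32 ^ c.k := by positivity
  have hmom : 0 ≤ Cmom m Q c C := by
    unfold Cmom
    have := kap_pos m
    positivity
  set CB : ℝ := C + C' + (1 + C) * 32 ^ c.k + Cmom m Q c C with hCB
  have hp : 0 ≤ (1 + C) * 32 ^ c.k := by positivity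
  refine ⟨⟨c.J, c.k, c.q, CB, cc, c₀, 1 / 100, ε₀, ε₁⟩, hJ0,
    ⟨hcadm.k_gt, by show 1 ≤ CB; linarith, hcc, hcc1, hc₀, hc₀1, by norm_num, le_rfl, hε₀, hε₀1, hε₁, hε₁1⟩, ?_⟩
  unfold Ev
  filter_upwards [Ioo_mem_nhdsGT (show (0 : ℝ) < 1 / 10 by norm_num)] with hc hhc
  have hb : 0 < min (hc / (8 * (C + c.C))) (1 / (100 * ((1 + C) * 32 ^ c.k))) := by
    have := hhc.1
    positivity
  filter_upwards [hfit, hsep, Ioo_mem_nhdsGT hb] with m₀ hfit hsep hm₀
  refine Eventually.of_forall fun Ca => Eventually.of_forall fun C₁ => Eventually.of_forall fun rs =>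
    Eventually.of_forall fun f => Eventually.of_forall fun C₂ => ?_
  filter_upwards [Ioo_mem_nhdsGT (show (0 : ℝ) < 1 / 32 by norm_num)] with lm hlm
  have hb2 : 0 < min (hc / 8) (cc * m₀ * lm ^ c.k) := by
    have := hhc.1
    have := hm₀.1
    have := hlm.1
    positivity
  filter_upwards [hfit, hsep, Ioo_mem_nhdsGT hb2] with eg hfit hsep heg
  intro W hW
  obtain ⟨F⟩ := hfit W hW
  have hS := hsep W hW F
  have hm₀0 := hm₀.1
  have hc0 := hhc.1
  have hc1 := hhc.2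
  have hCc : 0 < 8 * (C + c.C) := by positivity
  have hs1 : (C + c.C) * m₀ ≤ hc / 8 := by
    have h := (hm₀.2.trans_le (min_le_left _ _)).le
    rw [le_div_iff₀ hCc] at h
    linarith
  have hs2 : (1 + C) * 32 ^ c.k * m₀ ≤ 1 / 100 := by
    have h := (hm₀.2.trans_le (min_le_right _ _)).le
    rw [le_div_iff₀ (by positivity)] at h
    linarith
  have hs3 : C * m₀ ≤ hc / 8 := by nlinarith
  have hs4 : c.C * m₀ ≤ hc / 8 := by nlinarith
  have hs5 : m₀ ≤ 1 := by nlinarith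
  obtain ⟨u, hu⟩ := hcen Q W m₀ hm₀0 hs5 F
  have hℓ : ∀ x, F.ℓ x ≤ lm :=
    ℓ_small_of_sep hW hS hcc hc₀1 hε₁.le hm₀0 hlm.1 (heg.2.trans_le (min_le_right _ _))
  have hℓ' : ∀ x, F.ℓ x ≤ 1 / 32 := fun x => (hℓ x).trans hlm.2.le
  have cyl : CylIn W Q u hc eg :=
    cylIn_of_center hW hJ4 hu hc0 hc1.le (heg.2.le.trans (min_le_left _ _)) hs3
  have G : GlOK F C u hc eg := ⟨hcadm, hC, hm₀0, hu, cyl, hℓ', hs2⟩
  exact startData_of hm hQ G (by omega)
    (hcurv Q W m₀ hm₀0 (by linarith) (by linarith) F u hu hℓ') hS hℓ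
    (by linarith) (by linarith) (by linarith) (by linarith)

end Claimed.Agent.R322.Fit
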